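import Mathlib
import Vale.Agent.Lib.P328.helper28.BlockFamily
import Vale.Agent.Lib.P328.helper12.TwoSmallRows
import Vale.Agent.Lib.P328.RP.Rows
import Vale.Agent.Lib.P328.RP.Mixing
import Vale.Agent.Lib.P335.helper48.Generic

/-!
P328: a block of arbitrary rows and rows of sum one, arbitrary column sums: the block
dynamics.

The rows in `B` (any number, arbitrary row sums) form one site, every row outside `B` (row
sum one) is a site of its own.  The blocks of the dynamics are the sets `B ∪ {a}` for the rows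
`a` outside `B`, and the pairs `{a, b}` of rows outside `B`.

* `FB.fat_transfer` : transfer of the inequality for (block, row, row) from the tables whose
  rows are the block and the two rows to the `m × n` tables.
* `FB.fat_block_hgap` : the variance is at most the sum over the blocks of the Dirichlet forms
  of the resamplings of the blocks, given the inequality for (block, row, row).
* `FB.blockBath` : the chain that draws a block uniformly at random and resamples the rows of
  the block uniformly given the other rows; `FB.mixing_of_block_hgap` : its mixing bound.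
-/

namespace Vale.Agent.Lib.P328.RP

open Finset
open Vale.Agent.Lib.P335.Bip
open Vale.Agent.Lib.P335.H48
open BlockTransfer

namespace FB

/-- **Transfer of the (block, row, row) inequality.**  An inequality between the resamplings
of the row sets `{u, v}`, all rows but `v`, all rows but `u`, and all rows of the `k × n`
tables transfers to the images of these row sets under `φ` in the `m × n` tables. -/
theorem fat_transfer {m n k : ℕ} {r : Fin m → ℕ} {c : Fin n → ℕ} (φ : Fin k ↪ Fin m)
    (u v : Fin k)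
    (h : ∀ (x0 : CT m n r c) (g : CT k n (r ∘ φ) (fun j => ∑ a, x0.1 (φ a) j) → ℝ),
      ip g (R {u, v} g) + ip g (R (univ.erase v) g) + ip g (R (univ.erase u) g)
        ≤ 2 * ip g g + ip g (R univ g))
    (f : CT m n r c → ℝ) :
    ip f (R (({u, v} : Finset (Fin k)).map φ) f)
        + ip f (R (((univ : Finset (Fin k)).erase v).map φ) f)
        + ip f (R (((univ : Finset (Fin k)).erase u).map φ) f)
      ≤ 2 * ip f f + ip f (R ((univ : Finset (Fin k)).map φ) f) := by
  classical
  set w : Fin 4 → ℝ := ![1, 1, 1, -1] with hw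
  set P : Fin 4 → Finset (Fin k) := ![{u, v}, univ.erase v, univ.erase u, univ] with hP
  have h' : ∀ (x0 : CT m n r c) (g : CT k n (r ∘ φ) (fun j => ∑ a, x0.1 (φ a) j) → ℝ),
      ∑ α ∈ (univ : Finset (Fin 4)), w α * ip g (E (P α) (univ : Finset (Fin n)) g)
        ≤ 2 * ip g g := by
    intro x0 g
    have h1 := h x0 g
    rw [Fin.sum_univ_four]
    simp only [hw, hP, E_univ_right, Matrix.cons_val_zero, Matrix.cons_val_one,
      Matrix.cons_val_two, Matrix.cons_val_three, Matrix.head_cons, Matrix.tail_cons]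
    linarith
  have key := block_transfer_at (univ : Finset (Fin 4)) w P
    (fun _ => (univ : Finset (Fin n))) 2 φ h' f
  rw [Fin.sum_univ_four] at key
  simp only [hw, hP, E_univ_right, Matrix.cons_val_zero, Matrix.cons_val_one,
    Matrix.cons_val_two, Matrix.cons_val_three, Matrix.head_cons, Matrix.tail_cons] at key
  linarith

/-- The sites: `none` is the block `B`, `some a` is the row `a` outside `B`. -/
def blk {m : ℕ} (B : Finset (Fin m)) : Option {i : Fin m // i ∉ B} → Finset (Fin m)
  | none => B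
  | some a => {a.1}

theorem blk_none {m : ℕ} (B : Finset (Fin m)) : blk B none = B := rfl

theorem blk_some {m : ℕ} (B : Finset (Fin m)) (a : {i : Fin m // i ∉ B}) :
    blk B (some a) = {a.1} := rfl

theorem blk_disj {m : ℕ} (B : Finset (Fin m)) (s t : Option {i : Fin m // i ∉ B})
    (hst : s ≠ t) : Disjoint (blk B s) (blk B t) := by
  rcases s with _ | a <;> rcases t with _ | b
  · exact absurd rfl hst
  · rw [blk_none, blk_some, Finset.disjoint_singleton_right]
    exact b.2
  · rw [blk_none, blk_some, Finset.disjoint_singleton_left]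
    exact a.2
  · rw [blk_some, blk_some, Finset.disjoint_singleton]
    exact fun h => hst (congrArg some (Subtype.ext h))

theorem blk_cov {m : ℕ} (B : Finset (Fin m)) (i : Fin m) : ∃ s, i ∈ blk B s := by
  by_cases hi : i ∈ B
  · exact ⟨none, hi⟩
  · exact ⟨some ⟨i, hi⟩, Finset.mem_singleton_self i⟩

theorem biUnion_pair_some {m : ℕ} (B : Finset (Fin m)) (a b : {i : Fin m // i ∉ B}) :
    ({some a, some b} : Finset (Option {i : Fin m // i ∉ B})).biUnion (blk B)
      = {a.1, b.1} := by
  rw [Finset.biUnion_insert, Finset.singleton_biUnion, blk_some, blk_some,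
    Finset.singleton_union]

theorem biUnion_pair_none {m : ℕ} (B : Finset (Fin m)) (a : {i : Fin m // i ∉ B}) :
    ({none, some a} : Finset (Option {i : Fin m // i ∉ B})).biUnion (blk B)
      = insert a.1 B := by
  rw [Finset.biUnion_insert, Finset.singleton_biUnion, blk_some, blk_none]
  ext i
  simp only [Finset.mem_union, Finset.mem_singleton, Finset.mem_insert]
  tauto

theorem biUnion_triple_none {m : ℕ} (B : Finset (Fin m)) (a b : {i : Fin m // i ∉ B}) :
    ({none, some a, some b} : Finset (Option {i : Fin m // i ∉ B})).biUnion (blk B)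
      = insert a.1 (insert b.1 B) := by
  rw [Finset.biUnion_insert, biUnion_pair_some, blk_none]
  ext i
  simp only [Finset.mem_union, Finset.mem_singleton, Finset.mem_insert]
  tauto

theorem biUnion_triple_some {m : ℕ} (B : Finset (Fin m)) (x y z : {i : Fin m // i ∉ B}) :
    ({some x, some y, some z} : Finset (Option {i : Fin m // i ∉ B})).biUnion (blk B)
      = {x.1, y.1, z.1} := by
  rw [Finset.biUnion_insert, biUnion_pair_some, blk_some, Finset.singleton_union]

/-- The triple inequality for three sites. -/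
theorem fat_htriple {m n : ℕ} (r : Fin m → ℕ) (c : Fin n → ℕ) (B : Finset (Fin m))
    (hr : ∀ i, i ∉ B → r i = 1)
    (hT : ∀ (k : ℕ) (r' : Fin k → ℕ) (c' : Fin n → ℕ) (u v : Fin k), u ≠ v → r' u = 1 →
      r' v = 1 → ∀ g : CT k n r' c' → ℝ,
      ip g (R {u, v} g) + ip g (R (univ.erase v) g) + ip g (R (univ.erase u) g)
        ≤ 2 * ip g g + ip g (R univ g))
    (T : Finset (Option {i : Fin m // i ∉ B})) (hT3 : T.card = 3) (g : CT m n r c → ℝ) :
    ip g g - ip g (R (T.biUnion (blk B)) g)
      ≤ ∑ e ∈ T.powersetCard 2, (ip g g - ip g (R (e.biUnion (blk B)) g)) := by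
  classical
  by_cases hBT : none ∈ T
  · have hc2 : (T.erase none).card = 2 := by rw [Finset.card_erase_of_mem hBT, hT3]
    obtain ⟨a', b', hab, hTe⟩ := Finset.card_eq_two.mp hc2
    have ha'T : a' ∈ T.erase none := by rw [hTe]; simp
    have hb'T : b' ∈ T.erase none := by rw [hTe]; simp
    have ha'n : a' ≠ none := (Finset.mem_erase.mp ha'T).1
    have hb'n : b' ≠ none := (Finset.mem_erase.mp hb'T).1
    rcases a' with _ | a
    · exact absurd rfl ha'n
    rcases b' with _ | b
    · exact absurd rfl hb'n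
    have hab' : a.1 ≠ b.1 := fun h => hab (congrArg some (Subtype.ext h))
    obtain ⟨ψ, q0, q1, q2⟩ : ∃ ψ : Fin 3 ↪ Option {i : Fin m // i ∉ B},
        ψ 0 = none ∧ ψ 1 = some a ∧ ψ 2 = some b :=
      ⟨⟨![none, some a, some b], BK.inj3 none (some a) (some b) (Ne.symm ha'n) (Ne.symm hb'n)
        hab⟩, rfl, rfl, rfl⟩
    have hTψ : T = (univ : Finset (Fin 3)).map ψ := by
      rw [BK.map_univ3, q0, q1, q2, ← hTe, Finset.insert_erase hBT]
    -- the rows of the block and the two rows
    set S : Finset (Fin m) := insert a.1 (insert b.1 B) with hS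
    set φ : Fin S.card ↪ Fin m := (S.orderEmbOfFin rfl).toEmbedding with hφdef
    have hφ : (univ : Finset (Fin S.card)).map φ = S := Finset.map_orderEmbOfFin_univ S rfl
    have haS : a.1 ∈ (univ : Finset (Fin S.card)).map φ := by
      rw [hφ, hS]
      exact Finset.mem_insert_self _ _
    have hbS : b.1 ∈ (univ : Finset (Fin S.card)).map φ := by
      rw [hφ, hS]
      exact Finset.mem_insert_of_mem (Finset.mem_insert_self _ _)
    obtain ⟨u, -, hu⟩ := Finset.mem_map.mp haS
    obtain ⟨v, -, hv⟩ := Finset.mem_map.mp hbS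
    have huv : u ≠ v := fun h => hab' (by rw [← hu, ← hv, h])
    have h4 := fat_transfer φ u v
      (fun x0 g' => hT S.card (r ∘ φ) _ u v huv
        (by show r (φ u) = 1; rw [hu]; exact hr _ a.2)
        (by show r (φ v) = 1; rw [hv]; exact hr _ b.2) g') g
    have e1 : (({u, v} : Finset (Fin S.card))).map φ = {a.1, b.1} := by
      rw [Finset.map_insert, Finset.map_singleton, hu, hv]
    have e2 : ((univ : Finset (Fin S.card)).erase v).map φ = insert a.1 B := by
      rw [Finset.map_erase, hφ, hv, hS]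
      ext i
      simp only [Finset.mem_erase, Finset.mem_insert]
      have h1 : i = a.1 → i ≠ b.1 := fun h h' => hab' (h.symm.trans h')
      have h2 : i ∈ B → i ≠ b.1 := fun h h' => b.2 (h' ▸ h)
      tauto
    have e3 : ((univ : Finset (Fin S.card)).erase u).map φ = insert b.1 B := by
      rw [Finset.map_erase, hφ, hu, hS]
      ext i
      simp only [Finset.mem_erase, Finset.mem_insert]
      have h1 : i = b.1 → i ≠ a.1 := fun h h' => hab' (h'.symm.trans h)
      have h2 : i ∈ B → i ≠ a.1 := fun h h' => a.2 (h' ▸ h)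
      tauto
    rw [e1, e2, e3, hφ] at h4
    rw [hTψ, BK.triple_sum ψ (fun e => ip g g - ip g (R (e.biUnion (blk B)) g)),
      BK.map_univ3, q0, q1, q2, biUnion_pair_some, biUnion_pair_none, biUnion_pair_none,
      biUnion_triple_none]
    linarith
  · obtain ⟨x', y', z', hxy, hxz, hyz, rfl⟩ := Finset.card_eq_three.mp hT3
    rcases x' with _ | x
    · exact absurd (by simp) hBT
    rcases y' with _ | y
    · exact absurd (by simp) hBT
    rcases z' with _ | z
    · exact absurd (by simp) hBT
    have hxy' : x.1 ≠ y.1 := fun h => hxy (congrArg some (Subtype.ext h))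
    have hxz' : x.1 ≠ z.1 := fun h => hxz (congrArg some (Subtype.ext h))
    have hyz' : y.1 ≠ z.1 := fun h => hyz (congrArg some (Subtype.ext h))
    obtain ⟨ψ, q0, q1, q2⟩ : ∃ ψ : Fin 3 ↪ Option {i : Fin m // i ∉ B},
        ψ 0 = some x ∧ ψ 1 = some y ∧ ψ 2 = some z :=
      ⟨⟨![some x, some y, some z], BK.inj3 (some x) (some y) (some z) hxy hxz hyz⟩,
        rfl, rfl, rfl⟩
    obtain ⟨φ, p0, p1, p2⟩ : ∃ φ : Fin 3 ↪ Fin m, φ 0 = x.1 ∧ φ 1 = y.1 ∧ φ 2 = z.1 :=
      ⟨⟨![x.1, y.1, z.1], BK.inj3 x.1 y.1 z.1 hxy' hxz' hyz'⟩, rfl, rfl, rfl⟩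
    have h3 := triple_of_threeRow_E_at φ
      (fun x0 g' => threeRow_of_rows (r ∘ φ) _
        (threeRow_rows_of_two_small (r ∘ φ) _ 0 1 (by decide)
          (by show r (φ 0) ≤ 1; rw [p0, hr _ x.2])
          (by show r (φ 1) ≤ 1; rw [p1, hr _ y.2])) g') g
    rw [BK.triple_sum φ (fun p => ip g (R p g)), BK.map_univ3, p0, p1, p2] at h3
    have hT' : ({some x, some y, some z} : Finset (Option {i : Fin m // i ∉ B}))
        = (univ : Finset (Fin 3)).map ψ := by
      rw [BK.map_univ3, q0, q1, q2]
    rw [hT', BK.triple_sum ψ (fun e => ip g g - ip g (R (e.biUnion (blk B)) g)),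
      BK.map_univ3, q0, q1, q2, biUnion_pair_some, biUnion_pair_some, biUnion_pair_some,
      biUnion_triple_some]
    linarith

/-- The blocks of the dynamics: the sets `B ∪ {a}` for the rows `a` outside `B`, and the
two-element sets of rows outside `B`. -/
def fatBlocks {m : ℕ} (B : Finset (Fin m)) : Finset (Finset (Fin m)) :=
  (univ.filter (fun a => a ∉ B)).image (fun a => insert a B)
    ∪ (univ.filter (fun a => a ∉ B)).powersetCard 2

theorem biUnion_mem_fatBlocks {m : ℕ} (B : Finset (Fin m))
    (e : Finset (Option {i : Fin m // i ∉ B})) (he : e.card = 2) :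
    e.biUnion (blk B) ∈ fatBlocks B := by
  classical
  obtain ⟨s, t, hst, rfl⟩ := Finset.card_eq_two.mp he
  unfold fatBlocks
  rw [Finset.mem_union]
  rcases s with _ | a <;> rcases t with _ | b
  · exact absurd rfl hst
  · left
    rw [biUnion_pair_none, Finset.mem_image]
    exact ⟨b.1, Finset.mem_filter.mpr ⟨Finset.mem_univ _, b.2⟩, rfl⟩
  · left
    rw [Finset.pair_comm, biUnion_pair_none, Finset.mem_image]
    exact ⟨a.1, Finset.mem_filter.mpr ⟨Finset.mem_univ _, a.2⟩, rfl⟩
  · right
    rw [biUnion_pair_some, Finset.mem_powersetCard]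
    refine ⟨?_, Finset.card_pair (fun h => hst (congrArg some (Subtype.ext h)))⟩
    intro i hi
    rw [Finset.mem_insert, Finset.mem_singleton] at hi
    rw [Finset.mem_filter]
    rcases hi with rfl | rfl
    · exact ⟨Finset.mem_univ _, a.2⟩
    · exact ⟨Finset.mem_univ _, b.2⟩

theorem some_mem_iff {m : ℕ} (B : Finset (Fin m)) (e : Finset (Option {i : Fin m // i ∉ B}))
    (a : {i : Fin m // i ∉ B}) : some a ∈ e ↔ a.1 ∈ e.biUnion (blk B) := by
  rw [Finset.mem_biUnion]
  constructor
  · intro h
    exact ⟨some a, h, Finset.mem_singleton_self _⟩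
  · rintro ⟨s, hs, has⟩
    rcases s with _ | a''
    · exact absurd has a.2
    · rw [blk_some, Finset.mem_singleton] at has
      have h1 : a = a'' := Subtype.ext has
      rw [h1]
      exact hs

theorem biUnion_inj {m : ℕ} (B : Finset (Fin m))
    (e e' : Finset (Option {i : Fin m // i ∉ B})) (he : e.card = 2) (he' : e'.card = 2)
    (h : e.biUnion (blk B) = e'.biUnion (blk B)) : e = e' := by
  classical
  have h1 : e.erase none = e'.erase none := by
    ext s
    rcases s with _ | a
    · simp
    · rw [Finset.mem_erase, Finset.mem_erase, some_mem_iff B e a, some_mem_iff B e' a, h]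
  by_cases hn : none ∈ e <;> by_cases hn' : none ∈ e'
  · rw [← Finset.insert_erase hn, ← Finset.insert_erase hn', h1]
  · exfalso
    have h2 := congrArg Finset.card h1
    rw [Finset.card_erase_of_mem hn, Finset.erase_eq_of_notMem hn', he, he'] at h2
    omega
  · exfalso
    have h2 := congrArg Finset.card h1
    rw [Finset.card_erase_of_mem hn', Finset.erase_eq_of_notMem hn, he, he'] at h2
    omega
  · rw [← Finset.erase_eq_of_notMem hn, ← Finset.erase_eq_of_notMem hn', h1]

theorem sum_sites_le {m : ℕ} (B : Finset (Fin m)) (F : Finset (Fin m) → ℝ)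
    (hF : ∀ p, 0 ≤ F p) :
    ∑ e ∈ (univ : Finset (Option {i : Fin m // i ∉ B})).powersetCard 2,
        F (e.biUnion (blk B))
      ≤ ∑ p ∈ fatBlocks B, F p := by
  classical
  have hinj : ∀ e ∈ (univ : Finset (Option {i : Fin m // i ∉ B})).powersetCard 2,
      ∀ e' ∈ (univ : Finset (Option {i : Fin m // i ∉ B})).powersetCard 2,
      e.biUnion (blk B) = e'.biUnion (blk B) → e = e' :=
    fun e he e' he' h => biUnion_inj B e e' (Finset.mem_powersetCard.mp he).2
      (Finset.mem_powersetCard.mp he').2 h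
  rw [← Finset.sum_image (f := F) hinj]
  apply Finset.sum_le_sum_of_subset_of_nonneg
  · intro p hp
    obtain ⟨e, he, rfl⟩ := Finset.mem_image.mp hp
    exact biUnion_mem_fatBlocks B e (Finset.mem_powersetCard.mp he).2
  · intro p _ _
    exact hF p

/-- **A block of arbitrary rows and rows of sum one: the gap inequality of the block
dynamics.**  Given the inequality `hT` for (block, row, row) on the tables whose rows are the
block and two rows of sum one, the variance is at most the sum over the blocks `B ∪ {a}` and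
`{a, b}` (`a`, `b` outside `B`) of the Dirichlet forms of the resamplings of the blocks. -/
theorem fat_block_hgap {m n : ℕ} (r : Fin m → ℕ) (c : Fin n → ℕ) (B : Finset (Fin m))
    (hB : ∃ i, i ∉ B) (hr : ∀ i, i ∉ B → r i = 1)
    (hT : ∀ (k : ℕ) (r' : Fin k → ℕ) (c' : Fin n → ℕ) (u v : Fin k), u ≠ v → r' u = 1 →
      r' v = 1 → ∀ g : CT k n r' c' → ℝ,
      ip g (R {u, v} g) + ip g (R (univ.erase v) g) + ip g (R (univ.erase u) g)
        ≤ 2 * ip g g + ip g (R univ g))
    (f : CT m n r c → ℝ) :
    ip f f - ip f (R univ f) ≤ ∑ p ∈ fatBlocks B, (ip f f - ip f (R p f)) := by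
  classical
  obtain ⟨i0, hi0⟩ := hB
  have hcard : 2 ≤ Fintype.card (Option {i : Fin m // i ∉ B}) := by
    rw [Fintype.card_option]
    have h0 : 0 < Fintype.card {i : Fin m // i ∉ B} := Fintype.card_pos_iff.mpr ⟨⟨i0, hi0⟩⟩
    omega
  have h1 := BK.block_hgap r c (blk B) (blk_disj B) (blk_cov B) hcard
    (fun T hT3 g => fat_htriple r c B hr hT T hT3 g) f
  exact h1.trans (sum_sites_le B (fun p => ip f f - ip f (R p f))
    (fun p => sub_nonneg.mpr (ip_cexp_le _ f)))

/-- Transition matrix of the block dynamics for a family `S` of sets of rows: a set `p ∈ S`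
is drawn uniformly at random, and the current table `x` is replaced by a uniformly random
table among those that agree with `x` outside the rows in `p`. -/
noncomputable def blockBath (m n : ℕ) (r : Fin m → ℕ) (c : Fin n → ℕ)
    (S : Finset (Finset (Fin m))) : Matrix (CT m n r c) (CT m n r c) ℝ :=
  fun x y => (∑ p ∈ S, if y ∈ fibre p x then 1 / ((fibre p x).card : ℝ) else 0) / (S.card : ℝ)

section chain

variable {m n : ℕ} {r : Fin m → ℕ} {c : Fin n → ℕ}

theorem blockBath_symm (S : Finset (Finset (Fin m))) (x y : CT m n r c) :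
    blockBath m n r c S x y = blockBath m n r c S y x := by
  unfold blockBath
  congr 1
  refine Finset.sum_congr rfl (fun p _ => ?_)
  by_cases h : y ∈ fibre p x
  · rw [if_pos h, if_pos ((Mixing.mem_fibre_comm p x y).mp h), Mixing.fibre_eq_of_mem p h]
  · rw [if_neg h, if_neg (fun h' => h ((Mixing.mem_fibre_comm p x y).mpr h'))]

theorem app_blockBath (S : Finset (Finset (Fin m))) (f : CT m n r c → ℝ) (x : CT m n r c) :
    app (blockBath m n r c S) f x = (∑ p ∈ S, R p f x) / (S.card : ℝ) := by
  classical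
  unfold app blockBath
  simp only [div_mul_eq_mul_div]
  rw [← Finset.sum_div]
  congr 1
  simp only [Finset.sum_mul]
  rw [Finset.sum_comm]
  refine Finset.sum_congr rfl (fun p _ => ?_)
  rw [R_apply_fibre]
  simp only [ite_mul, zero_mul]
  rw [Finset.sum_ite_mem, Finset.univ_inter, Finset.sum_div]
  refine Finset.sum_congr rfl (fun y _ => ?_)
  ring

theorem card_pos_of_nonempty (S : Finset (Finset (Fin m))) (hS : S.Nonempty) :
    (0 : ℝ) < (S.card : ℝ) := by
  exact_mod_cast Finset.card_pos.mpr hS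

theorem blockBath_row_sum (S : Finset (Finset (Fin m))) (hS : S.Nonempty) (x : CT m n r c) :
    ∑ y, blockBath m n r c S x y = 1 := by
  have h1 := app_blockBath S (fun _ : CT m n r c => (1 : ℝ)) x
  unfold app at h1
  simp only [mul_one] at h1
  rw [h1]
  simp only [Mixing.R_one]
  rw [Finset.sum_const, nsmul_eq_mul, mul_one]
  exact div_self (card_pos_of_nonempty S hS).ne'

theorem bil_blockBath (S : Finset (Finset (Fin m))) (f : CT m n r c → ℝ) :
    bil (blockBath m n r c S) f f = (∑ p ∈ S, ip f (R p f)) / (S.card : ℝ) := by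
  rw [bil_eq]
  simp only [app_blockBath, mul_div_assoc']
  rw [← Finset.sum_div]
  congr 1
  simp only [Finset.mul_sum]
  rw [Finset.sum_comm]
  rfl

theorem bil_blockBath_nonneg (S : Finset (Finset (Fin m))) (f : CT m n r c → ℝ) :
    0 ≤ bil (blockBath m n r c S) f f := by
  rw [bil_blockBath]
  exact div_nonneg (Finset.sum_nonneg (fun p _ => ip_cexp_self_nonneg _ f)) (Nat.cast_nonneg _)

theorem bil_blockBath_gap (S : Finset (Finset (Fin m))) (hS : S.Nonempty)
    (hgap : ∀ f : CT m n r c → ℝ, ip f f - ip f (R univ f)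
      ≤ ∑ p ∈ S, (ip f f - ip f (R p f)))
    (f : CT m n r c → ℝ) (hf : ∑ x, f x = 0) :
    bil (blockBath m n r c S) f f ≤ (1 - 1 / (S.card : ℝ)) * ∑ x, f x ^ 2 := by
  have hC := card_pos_of_nonempty S hS
  have hmean : R (univ : Finset (Fin m)) f = 0 := by
    funext x
    rw [R_univ_apply, hf, zero_div]
    rfl
  have h1 := hgap f
  rw [hmean, ip_zero_right, sub_zero, Finset.sum_sub_distrib, Finset.sum_const,
    nsmul_eq_mul] at h1
  rw [bil_blockBath, ← ip_eq_sum_sq, div_le_iff₀ hC]
  have h2 : (1 - 1 / (S.card : ℝ)) * ip f f * (S.card : ℝ)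
      = (S.card : ℝ) * ip f f - ip f f := by
    field_simp
  rw [h2]
  linarith

/-- Decay of the distance to the uniform distribution for the block dynamics. -/
theorem block_l1_decay (S : Finset (Finset (Fin m))) (hS : S.Nonempty)
    (hgap : ∀ f : CT m n r c → ℝ, ip f f - ip f (R univ f)
      ≤ ∑ p ∈ S, (ip f f - ip f (R p f)))
    (t : ℕ) (x : CT m n r c) :
    ∑ y, |(blockBath m n r c S ^ t) x y - 1 / (Fintype.card (CT m n r c) : ℝ)|
      ≤ Real.sqrt (Fintype.card (CT m n r c)) * (1 - 1 / (S.card : ℝ)) ^ t := by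
  have hC := card_pos_of_nonempty S hS
  have hC1 : (1 : ℝ) ≤ (S.card : ℝ) := by
    exact_mod_cast Finset.card_pos.mpr hS
  refine l1_le_of_poincare (blockBath m n r c S) (blockBath_symm S) (blockBath_row_sum S hS)
    (bil_blockBath_nonneg S) (1 / (S.card : ℝ)) ?_ (bil_blockBath_gap S hS hgap) t x
  rw [div_le_one hC]
  exact hC1

end chain

/-- **Mixing of the block dynamics from its gap inequality.** -/
theorem mixing_of_block_hgap {m n : ℕ} (r : Fin m → ℕ) (c : Fin n → ℕ)
    (S : Finset (Finset (Fin m))) (hS : S.Nonempty)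
    (hgap : ∀ f : CT m n r c → ℝ, ip f f - ip f (R univ f)
      ≤ ∑ p ∈ S, (ip f f - ip f (R p f)))
    (x : CT m n r c) (ε : ℝ) (hε : 0 < ε) (t : ℕ)
    (ht : (S.card : ℝ) * (m * n * Real.log (((∑ i, r i : ℕ) : ℝ) + 1) + Real.log (1 / ε))
      ≤ t) :
    (1 / 2) * ∑ y, |(blockBath m n r c S ^ t) x y - 1 / (Fintype.card (CT m n r c) : ℝ)|
      ≤ ε := by
  have hdecay := block_l1_decay S hS hgap t x
  have hC := card_pos_of_nonempty S hS
  have hC1 : (1 : ℝ) ≤ (S.card : ℝ) := by
    exact_mod_cast Finset.card_pos.mpr hS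
  set L : ℝ := Real.log (((∑ i, r i : ℕ) : ℝ) + 1) with hL
  have hN1 : (1 : ℝ) ≤ ((∑ i, r i : ℕ) : ℝ) + 1 := by
    have : (0 : ℝ) ≤ ((∑ i, r i : ℕ) : ℝ) := Nat.cast_nonneg _
    linarith
  set X : ℝ := (m : ℝ) * n * L + Real.log (1 / ε) with hX
  have hcard1 : (1 : ℝ) ≤ (Fintype.card (CT m n r c) : ℝ) := by
    have : 0 < Fintype.card (CT m n r c) := Fintype.card_pos_iff.mpr ⟨x⟩
    exact_mod_cast this
  have hcard : (Fintype.card (CT m n r c) : ℝ) ≤ Real.exp ((m : ℝ) * n * L) := by
    have h1 : (Fintype.card (CT m n r c) : ℝ) ≤ (((∑ i, r i : ℕ) : ℝ) + 1) ^ (m * n) := by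
      exact_mod_cast (Mixing.card_CT_le (m := m) (n := n) (r := r) (c := c))
    refine h1.trans (le_of_eq ?_)
    have h2 : (m : ℝ) * n * L = ((m * n : ℕ) : ℝ) * L := by push_cast; ring
    rw [h2, Real.exp_nat_mul, hL, Real.exp_log (by linarith)]
  have hsqrt : Real.sqrt (Fintype.card (CT m n r c)) ≤ Real.exp ((m : ℝ) * n * L) := by
    refine le_trans ?_ hcard
    rw [Real.sqrt_le_left (by linarith)]
    nlinarith
  have hbase0 : 0 ≤ 1 - 1 / (S.card : ℝ) := by
    have : 1 / (S.card : ℝ) ≤ 1 := by
      rw [div_le_one hC]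
      exact hC1
    linarith
  have hpow : (1 - 1 / (S.card : ℝ)) ^ t ≤ Real.exp (-((t : ℝ) / (S.card : ℝ))) := by
    have h1 : (1 - 1 / (S.card : ℝ)) ^ t ≤ Real.exp (-(1 / (S.card : ℝ))) ^ t :=
      pow_le_pow_left₀ hbase0 (Real.one_sub_le_exp_neg _) t
    refine h1.trans (le_of_eq ?_)
    rw [← Real.exp_nat_mul]
    congr 1
    ring
  have htC : X ≤ (t : ℝ) / (S.card : ℝ) := by
    rw [le_div_iff₀ hC]
    have h2 : X * (S.card : ℝ) = (S.card : ℝ) * ((m : ℝ) * n * L + Real.log (1 / ε)) := by
      rw [hX]; ring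
    linarith
  have hfin : Real.sqrt (Fintype.card (CT m n r c)) * (1 - 1 / (S.card : ℝ)) ^ t ≤ ε := by
    calc Real.sqrt (Fintype.card (CT m n r c)) * (1 - 1 / (S.card : ℝ)) ^ t
        ≤ Real.exp ((m : ℝ) * n * L) * Real.exp (-((t : ℝ) / (S.card : ℝ))) :=
          mul_le_mul hsqrt hpow (pow_nonneg hbase0 t) (Real.exp_pos _).le
      _ = Real.exp ((m : ℝ) * n * L - (t : ℝ) / (S.card : ℝ)) := by
          rw [← Real.exp_add]
          congr 1
      _ ≤ Real.exp (-Real.log (1 / ε)) := by
          apply Real.exp_le_exp.mpr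
          rw [hX] at htC
          linarith
      _ = ε := by
          rw [one_div, Real.log_inv, neg_neg, Real.exp_log hε]
  linarith

theorem card_fatBlocks_le {m : ℕ} (B : Finset (Fin m)) : (fatBlocks B).card ≤ m ^ 2 := by
  classical
  unfold fatBlocks
  have hk : (univ.filter (fun a : Fin m => a ∉ B)).card ≤ m := by
    have h := Finset.card_le_univ (univ.filter (fun a : Fin m => a ∉ B))
    rwa [Fintype.card_fin] at h
  have h1 : ((univ.filter (fun a : Fin m => a ∉ B)).image (fun a => insert a B)).card ≤ m :=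
    Finset.card_image_le.trans hk
  have h2 : ((univ.filter (fun a : Fin m => a ∉ B)).powersetCard 2).card ≤ m * (m - 1) := by
    rw [Finset.card_powersetCard]
    refine (Nat.choose_le_choose 2 hk).trans ?_
    rw [Nat.choose_two_right]
    exact Nat.div_le_self _ _
  refine (Finset.card_union_le _ _).trans ?_
  rcases m with _ | k
  · have h2' : ((univ.filter (fun a : Fin 0 => a ∉ B)).powersetCard 2).card ≤ 0 := by
      simp
    have e : (0 : ℕ) ^ 2 = 0 := by norm_num
    rw [e]
    omega
  · have h3 : (k + 1) * (k + 1 - 1) = (k + 1) * k := by simp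
    rw [h3] at h2
    nlinarith

/-- **A block of arbitrary rows and rows of sum one: mixing of the block dynamics.** -/
theorem fat_block_mixing {m n : ℕ} (r : Fin m → ℕ) (c : Fin n → ℕ) (B : Finset (Fin m))
    (hB : ∃ i, i ∉ B) (hr : ∀ i, i ∉ B → r i = 1)
    (hT : ∀ (k : ℕ) (r' : Fin k → ℕ) (c' : Fin n → ℕ) (u v : Fin k), u ≠ v → r' u = 1 →
      r' v = 1 → ∀ g : CT k n r' c' → ℝ,
      ip g (R {u, v} g) + ip g (R (univ.erase v) g) + ip g (R (univ.erase u) g)
        ≤ 2 * ip g g + ip g (R univ g))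
    (x : CT m n r c) (ε : ℝ) (hε : 0 < ε) (hε1 : ε ≤ 1) (t : ℕ)
    (ht : (m : ℝ) ^ 2 * (m * n * Real.log (((∑ i, r i : ℕ) : ℝ) + 1) + Real.log (1 / ε))
      ≤ t) :
    (1 / 2) * ∑ y, |(blockBath m n r c (fatBlocks B) ^ t) x y
        - 1 / (Fintype.card (CT m n r c) : ℝ)| ≤ ε := by
  classical
  have hS : (fatBlocks B).Nonempty := by
    obtain ⟨i0, hi0⟩ := hB
    refine ⟨insert i0 B, ?_⟩
    unfold fatBlocks
    rw [Finset.mem_union]
    left
    rw [Finset.mem_image]
    exact ⟨i0, Finset.mem_filter.mpr ⟨Finset.mem_univ _, hi0⟩, rfl⟩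
  refine mixing_of_block_hgap r c (fatBlocks B) hS (fat_block_hgap r c B hB hr hT) x ε hε t
    (le_trans ?_ ht)
  have hX : 0 ≤ (m : ℝ) * n * Real.log (((∑ i, r i : ℕ) : ℝ) + 1) + Real.log (1 / ε) := by
    have h1 : 0 ≤ Real.log (((∑ i, r i : ℕ) : ℝ) + 1) := by
      apply Real.log_nonneg
      have : (0 : ℝ) ≤ ((∑ i, r i : ℕ) : ℝ) := Nat.cast_nonneg _
      linarith
    have h2 : 0 ≤ Real.log (1 / ε) := by
      apply Real.log_nonneg
      rw [le_div_iff₀ hε]
      linarith
    have h3 : 0 ≤ (m : ℝ) * n := by positivity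
    have := mul_nonneg h3 h1
    linarith
  have hc : ((fatBlocks B).card : ℝ) ≤ (m : ℝ) ^ 2 := by
    exact_mod_cast card_fatBlocks_le B
  exact mul_le_mul_of_nonneg_right hc hX

end FB

end Vale.Agent.Lib.P328.RP
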